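import Vale.Agent.P207.Q.H545.Step5
import Vale.Agent.P207.Q.H916.Fr4
import Vale.Agent.P207.Q.H130.RicUniq

/-!
# P207: equivariance of the unstable Riccati tensor and functions on the unit tangent bundle
-/

open scoped Manifold ContDiff ENNReal Topology
open Bundle MeasureTheory Set Filter
open scoped Matrix

set_option maxSynthPendingDepth 3
set_option linter.unusedSectionVars false

noncomputable section

namespace Vale.Agent.P207.Q.H130

open Vale.Agent.P255 (RMetric coefIn Gam Riem IsGeo Metric trans coefL)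
open Vale.Agent.P207 Vale.Agent.P207.Q Vale.Agent.P207.Q.H892 Vale.Agent.P207.Q.H545

section curv

variable {n : ℕ} {M : Type} [TopologicalSpace M] [ChartedSpace (EV n) M]
  [IsManifold 𝓘(ℝ, EV n) ∞ M] {g : RMetric (EV n) M}

/-- the curvature components of a rotated frame -/
theorem Rf_rot (A : OG n) (f : Fr g) (i j k l : Fin n) :
    Rf g (Fr.rot A f) i j k l =
      ∑ a, A.1 a i * ∑ b, A.1 b j * ∑ c, A.1 c k * ∑ d, A.1 d l * Rf g f a b c d := by
  have h : ∀ (G : EV n →L[ℝ] EV n →L[ℝ] ℝ) (R : EV n →L[ℝ] EV n →L[ℝ] EV n →L[ℝ] EV n)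
      (e : Fin n → EV n),
      G (R (∑ a, A.1 a i • e a) (∑ a, A.1 a j • e a) (∑ a, A.1 a k • e a))
        (∑ a, A.1 a l • e a) =
      ∑ a, A.1 a i * ∑ b, A.1 b j * ∑ c, A.1 c k * ∑ d, A.1 d l * G (R (e a) (e b) (e c)) (e d) := by
    intro G R e
    have h4 : ∀ z, G z (∑ a, A.1 a l • e a) = ∑ d, A.1 d l * G z (e d) := fun z => by
      simp only [map_sum, map_smul, smul_eq_mul]
    have h3 : ∀ x y w, G (R x y (∑ a, A.1 a k • e a)) w = ∑ c, A.1 c k * G (R x y (e c)) w :=
      fun x y w => by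
        simp only [map_sum, map_smul, sum_apply, smul_apply, smul_eq_mul]
    have h2 : ∀ x z w, G (R x (∑ a, A.1 a j • e a) z) w = ∑ c, A.1 c j * G (R x (e c) z) w :=
      fun x z w => by
        simp only [map_sum, map_smul, sum_apply, smul_apply, smul_eq_mul]
    have h1 : ∀ y z w, G (R (∑ a, A.1 a i • e a) y z) w = ∑ c, A.1 c i * G (R (e c) y z) w :=
      fun y z w => by
        simp only [map_sum, map_smul, sum_apply, smul_apply, smul_eq_mul]
    rw [h1]
    refine Finset.sum_congr rfl fun a _ => ?_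
    rw [h2]
    congr 1
    refine Finset.sum_congr rfl fun b _ => ?_
    rw [h3]
    congr 1
    refine Finset.sum_congr rfl fun c _ => ?_
    rw [h4]
  exact h _ _ _

end curv

section K

variable {m : ℕ} {M : Type} [TopologicalSpace M] [ChartedSpace (EV (m + 1)) M]
  [IsManifold 𝓘(ℝ, EV (m + 1)) ∞ M] {g : RMetric (EV (m + 1)) M}

/-- the curvature matrix `K_ij = -⟨R(e_i, e_0) e_0, e_j⟩`, `i, j ≥ 1` -/
def Km (g : RMetric (EV (m + 1)) M) (f : Fr g) : Matrix (Fin m) (Fin m) ℝ :=
  fun i j => -Rf g f i.succ 0 0 j.succ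

/-- the lower block of an orthogonal matrix -/
def low (A : OG (m + 1)) : Matrix (Fin m) (Fin m) ℝ := fun i j => A.1 i.succ j.succ

theorem Km_symm (f : Fr g) : (Km g f)ᵀ = Km g f := by
  ext i j
  change -Rf g f j.succ 0 0 i.succ = -Rf g f i.succ 0 0 j.succ
  congr 1
  exact D1.curvT_jacobi_symm ((mt g).isMetricOn f.pt) (mem_chart_target _ _) _ _ _

theorem stab_col {A : OG (m + 1)} (hA : A ∈ Stab (m + 1)) (i : Fin (m + 1)) :
    A.1 i 0 = if i = 0 then 1 else 0 := by
  have h1 := congrArg (fun v : EV (m + 1) => v i) (mem_Stab.1 hA)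
  simp only [PiLp.single_apply] at h1
  rw [← h1]
  simp

theorem stab_row {A : OG (m + 1)} (hA : A ∈ Stab (m + 1)) (j : Fin (m + 1)) :
    A.1 0 j = if j = 0 then 1 else 0 := by
  have h2 : (A.1.transpose * A.1) 0 j = if (0 : Fin (m + 1)) = j then 1 else 0 := by
    have h3 : A.1.transpose * A.1 = 1 :=
      (Matrix.mem_orthogonalGroup_iff' (Fin (m + 1)) ℝ).1 A.2
    rw [h3, Matrix.one_apply]
  rw [Matrix.mul_apply] at h2
  simp only [Matrix.transpose_apply, stab_col hA, ite_mul, one_mul, zero_mul,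
    Finset.sum_ite_eq', Finset.mem_univ, if_true] at h2
  rw [h2]
  simp only [eq_comm]

theorem low_orth {A : OG (m + 1)} (hA : A ∈ Stab (m + 1)) : (low A)ᵀ * low A = 1 := by
  ext i j
  have h2 : (A.1.transpose * A.1) i.succ j.succ = if i.succ = j.succ then 1 else 0 := by
    have h3 : A.1.transpose * A.1 = 1 :=
      (Matrix.mem_orthogonalGroup_iff' (Fin (m + 1)) ℝ).1 A.2
    rw [h3, Matrix.one_apply]
  rw [Matrix.mul_apply, Fin.sum_univ_succ] at h2
  simp only [Matrix.transpose_apply, stab_row hA, Fin.succ_ne_zero, if_false, zero_mul,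
    zero_add, Fin.succ_inj] at h2
  rw [Matrix.mul_apply, Matrix.one_apply, ← h2]
  rfl

theorem low_orth' {A : OG (m + 1)} (hA : A ∈ Stab (m + 1)) : low A * (low A)ᵀ = 1 :=
  mul_eq_one_comm.1 (low_orth hA)

/-- equivariance of the curvature matrix -/
theorem Km_rot {A : OG (m + 1)} (hA : A ∈ Stab (m + 1)) (f : Fr g) :
    Km g (Fr.rot A f) = (low A)ᵀ * Km g f * low A := by
  ext i j
  change -Rf g (Fr.rot A f) i.succ 0 0 j.succ = _
  rw [Rf_rot]
  simp only [stab_col hA, ite_mul, one_mul, zero_mul, Finset.sum_ite_eq', Finset.mem_univ,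
    if_true]
  rw [Fin.sum_univ_succ, stab_row hA]
  simp only [Fin.succ_ne_zero, if_false, zero_mul, zero_add]
  simp only [Fin.sum_univ_succ (fun d => A.1 d j.succ * _), stab_row hA, Fin.succ_ne_zero,
    if_false, zero_mul, zero_add]
  rw [Matrix.mul_assoc, Matrix.mul_apply, ← Finset.sum_neg_distrib]
  refine Finset.sum_congr rfl fun a _ => ?_
  rw [Matrix.mul_apply, ← mul_neg, ← Finset.sum_neg_distrib]
  change A.1 a.succ i.succ * _ = A.1 a.succ i.succ * _
  congr 1
  refine Finset.sum_congr rfl fun b _ => ?_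
  change _ = -Rf g f a.succ 0 0 b.succ * A.1 b.succ j.succ
  ring

/-- an unstable Riccati tensor along the frame flow `Φ`: bounded, `≥ lam > 0`, `U' = K - U ^ 2` -/
structure IsUR (Φ : ℝ → Fr g → Fr g) (lam B : ℝ) (U : Fr g → Matrix (Fin m) (Fin m) ℝ) : Prop where
  pos : 0 < lam
  lo : ∀ f x, lam * (x ⬝ᵥ x) ≤ x ⬝ᵥ (U f *ᵥ x)
  bd : ∀ f i j, |U f i j| ≤ B
  ric : ∀ f r i j, HasDerivAt (fun s => U (Φ s f) i j)
    (Km g (Φ r f) i j - (U (Φ r f) * U (Φ r f)) i j) r

variable [T2Space M] {Φ : ℝ → Fr g → Fr g} {lam B lam' B' : ℝ}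
  {U V : Fr g → Matrix (Fin m) (Fin m) ℝ}

/-- uniqueness -/
theorem IsUR.unique (hΦ : IsHorFlow g (Pi.single 0 1) Φ) (hU : IsUR Φ lam B U)
    (hV : IsUR Φ lam' B' V) : U = V := by
  funext f
  have h1 := riccati_unique (U := fun s => U (Φ s f)) (V := fun s => V (Φ s f))
    (K := fun s => Km g (Φ s f)) (lam := min lam lam') (B := max B B')
    (lt_min hU.pos hV.pos) (fun i j t => hU.ric f t i j) (fun i j t => hV.ric f t i j)
    (fun t x => (mul_le_mul_of_nonneg_right (min_le_left _ _)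
      (Finset.sum_nonneg fun i _ => mul_self_nonneg _)).trans (hU.lo _ x))
    (fun t x => (mul_le_mul_of_nonneg_right (min_le_right _ _)
      (Finset.sum_nonneg fun i _ => mul_self_nonneg _)).trans (hV.lo _ x))
    (fun t i j => (hU.bd _ i j).trans (le_max_left _ _))
    (fun t i j => (hV.bd _ i j).trans (le_max_right _ _))
  have h2 := congrFun h1 0
  simp only [hΦ.zero] at h2
  exact h2

/-- symmetry is automatic -/
theorem IsUR.symm (hΦ : IsHorFlow g (Pi.single 0 1) Φ) (hU : IsUR Φ lam B U) (f : Fr g) :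
    (U f)ᵀ = U f := by
  have h : IsUR Φ lam B (fun f => (U f)ᵀ) := by
    refine ⟨hU.pos, fun f x => ?_, fun f i j => hU.bd f j i, fun f r i j => ?_⟩
    · have h1 := hU.lo f x
      change lam * (x ⬝ᵥ x) ≤ x ⬝ᵥ ((U f)ᵀ *ᵥ x)
      rw [Matrix.mulVec_transpose, dotProduct_comm x (x ᵥ* U f), ← Matrix.dotProduct_mulVec]
      exact h1
    · refine (hU.ric f r j i).congr_deriv ?_
      have h2 : Km g (Φ r f) j i = Km g (Φ r f) i j :=
        congrFun (congrFun (Km_symm (Φ r f)) i) j
      rw [h2, ← Matrix.transpose_mul, Matrix.transpose_apply]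
  exact congrFun (h.unique hΦ hU) f

/-- equivariance under the rotations of `e_1, …, e_m` -/
theorem IsUR.rot (hΦ : IsHorFlow g (Pi.single 0 1) Φ) (hU : IsUR Φ lam B U) {A : OG (m + 1)}
    (hA : A ∈ Stab (m + 1)) (f : Fr g) : U (Fr.rot A f) = (low A)ᵀ * U f * low A := by
  have hrot : ∀ s f, Φ s (Fr.rot A f) = Fr.rot A (Φ s f) := by
    intro s f
    refine hΦ.rot hΦ A ?_ s f
    funext i
    rw [Matrix.mulVec_single_one]
    change A.1 i 0 = _
    rw [stab_col hA, Pi.single_apply]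
  have h : IsUR Φ lam (∑ _k : Fin m, ∑ _l : Fin m, |B|) (fun f => low A * U (Fr.rot A f) * (low A)ᵀ) := by
    refine ⟨hU.pos, fun f x => ?_, fun f i j => ?_, fun f r i j => ?_⟩
    · have h1 := hU.lo (Fr.rot A f) ((low A)ᵀ *ᵥ x)
      have h2 : ((low A)ᵀ *ᵥ x) ⬝ᵥ ((low A)ᵀ *ᵥ x) = x ⬝ᵥ x := by
        rw [Matrix.dotProduct_mulVec, Matrix.vecMul_transpose, Matrix.mulVec_mulVec,
          low_orth' hA, Matrix.one_mulVec]
      have h3 : ((low A)ᵀ *ᵥ x) ⬝ᵥ (U (Fr.rot A f) *ᵥ ((low A)ᵀ *ᵥ x)) =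
          x ⬝ᵥ ((low A * U (Fr.rot A f) * (low A)ᵀ) *ᵥ x) := by
        rw [Matrix.mulVec_transpose, ← Matrix.dotProduct_mulVec, Matrix.mul_assoc,
          ← Matrix.mulVec_mulVec, ← Matrix.mulVec_mulVec, Matrix.mulVec_transpose]
      rw [h2, h3] at h1
      exact h1
    · have hent : ∀ (k l : Fin m), |low A k l| ≤ 1 := by
        intro k l
        have h1 : ((low A)ᵀ * low A) l l = 1 := by rw [low_orth hA, Matrix.one_apply_eq]
        rw [Matrix.mul_apply] at h1
        have h2 : low A k l * low A k l ≤ 1 := by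
          rw [← h1]
          exact Finset.single_le_sum (f := fun k => (low A)ᵀ l k * low A k l)
            (fun k _ => mul_self_nonneg (low A k l)) (Finset.mem_univ k)
        exact abs_le_one_iff_mul_self_le_one.2 h2
      rw [Matrix.mul_assoc, Matrix.mul_apply]
      refine (Finset.abs_sum_le_sum_abs _ _).trans (Finset.sum_le_sum fun k _ => ?_)
      rw [Matrix.mul_apply, abs_mul]
      refine (mul_le_of_le_one_left (abs_nonneg _) (hent _ _)).trans ?_
      refine (Finset.abs_sum_le_sum_abs _ _).trans (Finset.sum_le_sum fun l _ => ?_)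
      rw [abs_mul, Matrix.transpose_apply]
      refine (mul_le_of_le_one_right (abs_nonneg _) (hent _ _)).trans ?_
      exact (hU.bd _ _ _).trans (le_abs_self _)
    · have hd : ∀ k l, HasDerivAt (fun s => U (Fr.rot A (Φ s f)) k l)
          (Km g (Fr.rot A (Φ r f)) k l -
            (U (Fr.rot A (Φ r f)) * U (Fr.rot A (Φ r f))) k l) r := by
        intro k l
        have h1 := hU.ric (Fr.rot A f) r k l
        simp only [hrot] at h1
        exact h1
      have h2 : HasDerivAt (fun s => (low A * U (Fr.rot A (Φ s f)) * (low A)ᵀ) i j)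
          ((low A * (Km g (Fr.rot A (Φ r f)) -
            U (Fr.rot A (Φ r f)) * U (Fr.rot A (Φ r f))) * (low A)ᵀ) i j) r := by
        simp only [Matrix.mul_assoc, Matrix.mul_apply (M := low A)]
        refine HasDerivAt.fun_sum fun k _ => HasDerivAt.const_mul _ ?_
        simp only [Matrix.mul_apply (N := (low A)ᵀ)]
        refine HasDerivAt.fun_sum fun l _ => HasDerivAt.mul_const ?_ _
        exact hd k l
      refine h2.congr_deriv ?_
      rw [Km_rot hA, ← Matrix.sub_apply]
      have h3 := low_orth' hA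
      refine congrFun (congrFun (?_ : _ = _) i) j
      calc low A * ((low A)ᵀ * Km g (Φ r f) * low A -
            U (Fr.rot A (Φ r f)) * U (Fr.rot A (Φ r f))) * (low A)ᵀ
          = (low A * (low A)ᵀ) * Km g (Φ r f) * (low A * (low A)ᵀ) -
            low A * U (Fr.rot A (Φ r f)) * 1 * U (Fr.rot A (Φ r f)) * (low A)ᵀ := by
              noncomm_ring
        _ = Km g (Φ r f) - low A * U (Fr.rot A (Φ r f)) * 1 * U (Fr.rot A (Φ r f)) * (low A)ᵀ := by
              rw [h3, one_mul, mul_one]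
        _ = _ := by
              rw [← low_orth hA]
              simp only [Matrix.mul_assoc]
  have h4 := congrFun (hU.unique hΦ h) f
  rw [h4]
  have h3 := low_orth hA
  calc U (Fr.rot A f) = ((low A)ᵀ * low A) * U (Fr.rot A f) * ((low A)ᵀ * low A) := by
        rw [h3, one_mul, mul_one]
    _ = _ := by simp only [Matrix.mul_assoc]

/-- invariance of the trace -/
theorem IsUR.trace_rot (hΦ : IsHorFlow g (Pi.single 0 1) Φ) (hU : IsUR Φ lam B U)
    {A : OG (m + 1)} (hA : A ∈ Stab (m + 1)) (f : Fr g) :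
    (U (Fr.rot A f)).trace = (U f).trace := by
  rw [hU.rot hΦ hA, Matrix.trace_mul_comm, ← Matrix.mul_assoc, low_orth' hA, one_mul]

variable [CompactSpace M]

/-- a continuous function on the frame bundle which is invariant under the rotations fixing `e_0`
is a continuous function on the unit tangent bundle -/
theorem exists_desc {Y : Type*} [TopologicalSpace Y] (F : C(Fr g, Y))
    (h : ∀ A ∈ Stab (m + 1), ∀ f, F (Fr.rot A f) = F f) :
    ∃ t : C(UT g, Y), ∀ f : Fr g, t (f.ut 0) = F f := by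
  have := t2Space_UT g
  have hb := isBdl_ut g
  have hc : Continuous (fun f : Fr g => f.ut 0) := hb.cont
  have hq : Topology.IsQuotientMap (⟨fun f : Fr g => f.ut 0, hc⟩ : C(Fr g, UT g)) :=
    hc.isClosedMap.isQuotientMap hc hb.surj
  have hF : Function.FactorsThrough F (⟨fun f : Fr g => f.ut 0, hc⟩ : C(Fr g, UT g)) := by
    intro a b hab
    obtain ⟨A, hA⟩ := hb.trans a b hab
    rw [← hA]
    exact (h (A.1)⁻¹ ((Stab (m + 1)).inv_mem A.2) a).symm
  exact ⟨hq.lift F hF, fun f => congrArg (fun q : C(Fr g, Y) => q f) (hq.lift_comp F hF)⟩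

/-- the trace of the unstable Riccati tensor as a function on the unit tangent bundle -/
theorem IsUR.exists_t (hΦ : IsHorFlow g (Pi.single 0 1) Φ) (hU : IsUR Φ lam B U)
    (hc : ∀ i, Continuous fun f => U f i i) {φ : ℝ → UT g → UT g} (hφ : IsGeoFlow g φ) :
    ∃ t : C(UT g, ℝ), (∀ f : Fr g, t (f.ut 0) = (U f).trace) ∧
      ∀ r (f : Fr g), t (φ r (f.ut 0)) = (U (Φ r f)).trace := by
  obtain ⟨t, ht⟩ := exists_desc (g := g) (⟨fun f => (U f).trace,
    continuous_finsetSum _ fun i _ => hc i⟩ : C(Fr g, ℝ)) (fun A hA f => hU.trace_rot hΦ hA f)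
  refine ⟨t, ht, fun r f => ?_⟩
  rw [← hΦ.ut_eq hφ r f]
  exact ht _

end K

end Vale.Agent.P207.Q.H130
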